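import Crest.Agent.N250.Av.CoreX
import Crest.Agent.N250.R0.Core
import Crest.Agent.N250.Wr.Cut
import Crest.Agent.N250.Ro.Rot

/-!
# Row 250 (helper13): the core action `AC` and the pairings `II` of `R0.Core` near `0`
-/

set_option autoImplicit false
open MeasureTheory Set Filter Topology Metric
open scoped ComplexConjugate
open Crest.GeometryTopology.MCF

noncomputable section

namespace Crest.Agent.N250.Av

open WS Wr R0 Gc

variable {S : Mv} (T : St S)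

theorem AC_eq (Y : Fin 3 → T.G.SmC) : T.AC Y = T.G.actC (T.G.oR T.ζA) Y := rfl

theorem IP_eq (φ : T.G.R) (w : T.G.SmC) (Y : Fin 3 → T.G.SmC) :
    T.IP φ w Y = T.G.actC (T.G.oR φ * w) Y := rfl


theorem diff_TT : Differentiable ℂ T.TT :=
  differentiable_pi.2 fun j => (Ro.diff_TT (Cj.fQ (T.e.Q j))).comp
    (f := fun (β : T.Bt) i => β (j, i)) (by fun_prop)

theorem TT_zero : T.TT 0 = 0 := funext fun _ => Ro.TT_zero _

theorem TT_star (β : T.Bt) : T.TT (star β) = star (T.TT β) :=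
  funext fun j => funext fun c => funext fun d =>
    Ro.TT_conj (Ro.fQ_conj (T.e.Q j)) (fun i => β (j, i)) c d

theorem ze_ζ {a b : ℝ} (ha : -7 < a) (h : a < b) (hb : b ≤ 1) (p : S.sl 0)
    (hp : (T.ze a b).1 p ≠ 0) : T.G.ζ.1 p = 1 :=
  zeta_one_of_ne T.P.shr.st (a := T.R + a) (b := T.R + b) (by linarith [T.hR]) (by linarith)
    (by linarith [T.ha']) T.P.hab (p := (p, 0)) p.2 hp

theorem ze_le (a b : ℝ) (p : S.sl 0) : |(T.ze a b).1 p| ≤ 1 :=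
  abs_le.2 ⟨(by norm_num : (-1 : ℝ) ≤ 0).trans (zeta_nonneg _ _ _), zeta_le_one _ _ _⟩

theorem ζA_ζ (p : S.sl 0) (hp : T.ζA.1 p ≠ 0) : T.G.ζ.1 p = 1 :=
  ze_ζ T (by norm_num) (by norm_num) (by norm_num) p hp

theorem AC_x : T.AC T.G.SC.x =
    (∫ p : S.sl 0, T.ζA.1 p * Real.exp (-‖(p : E)‖ ^ 2 / 4) ∂T.G.M.mu : ℝ) := by
  rw [AC_eq, T.G.actC_x_oR]
  exact congrArg _ (integral_congr_ae (.of_forall fun p => congrArg
    (fun t => T.ζA.1 p * Real.exp (-t / 4)) (mv_x2 T.P.shr.reg p)))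

variable {T} (F : Fa T) {σ : Scale T.G}

theorem φ_ζ (k : F.I) (p : S.sl 0) (hp : (F.φ k).1 p ≠ 0) : T.G.ζ.1 p = 1 :=
  zeta_one T.P.hab (p := (p, 0)) fun j => Or.inl (by
    linarith [(F.supp k p (subset_tsupport _ hp)).1, abs_xi_le (e := T.e) j p,
      le_abs_self (xi T.e j p), T.ha'])

theorem φ_bd : ∃ C : ℝ, 1 ≤ C ∧ ∀ k p, |(F.φ k).1 p| ≤ C := by
  have h : ∀ k, ∀ᶠ C in atTop, ∀ p, |(F.φ k).1 p| ≤ C := fun k => by
    obtain ⟨C, hC⟩ := (T.G.contR (F.φ k)).bounded_above_of_compact_support (F.grn.cs k)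
    exact eventually_atTop.2 ⟨C, fun B hB p => (hC p).trans hB⟩
  exact ((eventually_ge_atTop 1).and (eventually_all.2 h)).exists

theorem good : F.D.Good where
  nZ := (Finset.sum_congr rfl fun _ _ => mul_comm _ _).trans T.Zn
  symZ := T.Zs
  symZd := T.Zd
  cχ j := T.P.cs_zetaR_chiR T.P.ha' T.P.hab (a' := T.R + -3 / 2) (b' := T.R + -1)
    (by linarith [T.hR]) (by linarith) j
  cφ := F.grn.cs
  symcut := T.P.sy_zetaR (a := T.R + 1 / 10) (b := T.R + 1 / 5) (by linarith [T.hR]) (by linarith)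
  cut := ze_ζ T (by norm_num) (by norm_num) (by norm_num)

variable (σ) in
/-- `(f, η, β) ↦ (f, η)` -/
def pr : F.Ξ σ →L[ℂ] σ.AA × (F.I → ℂ) :=
  (ContinuousLinearMap.fst ℂ _ _).prod
    ((ContinuousLinearMap.fst ℂ _ _).comp (ContinuousLinearMap.snd ℂ _ _))


theorem w_zero : F.w (0 : F.Ξ σ) = 0 := map_zero (σ.wL F.grn)

theorem Y_zero : F.Y (0 : F.Ξ σ) = T.G.SC.x := by
  rw [Fa.Y, w_zero]
  exact (congrArg _ (TT_zero T)).trans F.D.Xh_zero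

theorem w_cj (ξ : F.Ξ σ) : F.w (F.cj ξ) = T.G.cj (F.w ξ) := σ.wG_cj F.grn (ξ.1, ξ.2.1)

theorem Y_cj (ξ : F.Ξ σ) : F.Y (F.cj ξ) = fun c => T.G.cj (F.Y ξ c) := funext fun c => by
  rw [Fa.Y, Fa.Y, Nq.Dt.cj_Xh, w_cj, ← TT_star]; rfl

theorem ipC_w (ξ : F.Ξ σ) (k : F.I) : T.G.ipC (F.φ k) (F.w ξ) = ξ.2.1 k :=
  (σ.isG F.grn (ξ.1, ξ.2.1)).ip k

theorem II_zero (k : F.I) : F.II (0 : F.Ξ σ) k = 0 := by
  rw [Fa.II, IP_eq, Y_zero, T.G.actC_x_ipC, ipC_w]; rfl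


/-- the set where `ζ = 1` -/
abbrev Kζ (T : St S) : Set (S.sl 0) := {p | T.G.ζ.1 p = 1}

/-- the core families on the ball of radius `r` -/
structure CB (σ : Scale T.G) (r C : ℝ) : Prop where
  pos : 0 < r
  ac : T.G.CFam (Kζ T) (ball (0 : F.Ξ σ) r) C (fun _ => T.G.oR T.ζA) F.Y
  ip : ∀ k, T.G.CFam (Kζ T) (ball (0 : F.Ξ σ) r) C (fun ξ => T.G.oR (F.φ k) * F.w ξ) F.Y

theorem exists_CB (Jt : σ.Jets F.φ) : ∃ r C, CB F σ r C := by
  obtain ⟨C, h1, hC⟩ := φ_bd F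
  obtain ⟨r, r0, h⟩ := (good F).cfam Jt (pr F σ) (T := fun ξ => T.TT ξ.2.2)
    (.of_forall fun ξ => ((diff_TT T).comp differentiable_snd.snd) ξ) (TT_zero T)
  exact ⟨r, C, r0, (h _ C (ζA_ζ T) fun p => (ze_le T _ _ p).trans h1).1,
    fun k => (h _ C (φ_ζ F k) (hC k)).2⟩

namespace CB

variable {F} {r C : ℝ} (h : CB F σ r C) {ξ : F.Ξ σ}
include h







theorem II_cj (hξ : ξ ∈ ball 0 r) (k : F.I) : F.II (F.cj ξ) k = conj (F.II ξ k) := by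
  have := (h.ip k).cj_eq hξ
  rwa [map_mul, T.G.cj_oR, ← Y_cj, ← w_cj] at this


theorem hol_II (k : F.I) : Gl.HolAt fun ξ : F.Ξ σ => F.II ξ k :=
  (h.ip k).holAt (mem_ball_self h.pos)

end CB

variable (Jt : σ.Jets F.φ)
include Jt


theorem hol_II (k : F.I) : Gl.HolAt fun ξ : F.Ξ σ => F.II ξ k :=
  let ⟨_, _, h⟩ := exists_CB F Jt; h.hol_II k

theorem hol_II' : Gl.HolAt (F.II (σ := σ)) :=
  (eventually_all.2 (hol_II F Jt)).mono fun _ h => differentiableAt_pi.2 h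

theorem fd_II (k : F.I) (v : F.Ξ σ) : fderiv ℂ (fun ξ : F.Ξ σ => F.II ξ k) 0 v = v.2.1 k := by
  obtain ⟨r, C, h⟩ := exists_CB F Jt
  refine ((h.ip k).fd_zero (mem_ball_self h.pos) (fun p _ => by rw [w_zero, mul_zero]; rfl) v
    (g' := T.G.oR (F.φ k) * F.w v) (fun p hp => mul_eq_zero_of_left
      (Complex.ofReal_eq_zero.2 (by_contra fun e => hp (φ_ζ F k p e))) _) fun p hp => ?_).trans ?_
  · have := Nq.Dt.hasF_w Jt (pr F σ) hp 0
    refine (congrArg (fun L : F.Ξ σ →L[ℂ] ℂ => L v)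
      (this.const_mul ((F.φ k).1 p : ℂ)).fderiv).trans ?_
    rw [← this.fderiv, smul_apply, Nq.Dt.fd_w Jt _ hp]; rfl
  · rw [Y_zero, T.G.actC_x_ipC, ipC_w]


theorem II_cj : ∀ᶠ ξ in 𝓝 (0 : F.Ξ σ), ∀ k, F.II (F.cj ξ) k = conj (F.II ξ k) :=
  let ⟨_, _, h⟩ := exists_CB F Jt
  (eventually_of_mem (ball_mem_nhds 0 h.pos)) fun _ hξ => h.II_cj hξ

end Crest.Agent.N250.Av

end
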