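import Crest.Agent.N250.Gc.Lin
import Crest.Agent.N250.Gc.Var2
import Crest.Agent.N250.Gc.Gr
import Crest.Agent.N250.Wt.Grn
import Crest.Agent.N250.Sw.Pg
import Crest.Agent.N250.Nq.Defs

-- ▼ part N250/Av/CoreAlg
section

/-!
# Row 250 (helper13): pointwise bounds for maps close to the identity
-/

set_option autoImplicit false

noncomputable section

namespace Crest.Agent.N250.Av

open Gc

variable {u v n : Fin 3 → ℂ} {a b : ℝ}

theorem dot_le (hu : ∀ c, ‖u c‖ ≤ a) (hv : ∀ c, ‖v c‖ ≤ b) : ‖dot u v‖ ≤ 3 * (a * b) := by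
  have k : ∀ c, ‖u c * v c‖ ≤ a * b := fun c => norm_mul_le_of_le (hu c) (hv c)
  rw [dot, Fin.sum_univ_three]
  linarith [norm_add₃_le (a := u 0 * v 0) (b := u 1 * v 1) (c := u 2 * v 2), k 0, k 1, k 2]

theorem cr_le (hu : ∀ c, ‖u c‖ ≤ a) (hv : ∀ c, ‖v c‖ ≤ b) (c : Fin 3) :
    ‖cr u v c‖ ≤ 2 * (a * b) :=
  (norm_sub_le_of_le (norm_mul_le_of_le (hu _) (hv _)) (norm_mul_le_of_le (hu _) (hv _))).trans_eq
    (by ring)

theorem P0_le (hn : ∀ c, ‖n c‖ ≤ 1) (c d : Fin 3) : ‖P0 n c d‖ ≤ 2 := by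
  refine (norm_sub_le_of_le (r₁ := 1) ?_ (norm_mul_le_of_le (hn c) (hn d))).trans_eq (by ring)
  split_ifs <;> simp

theorem Nv_sub_le {J : Fin 3 → Fin 3 → ℂ} (hn : ∀ c, ‖n c‖ ≤ 1)
    (hJ : ∀ c d, ‖J c d - P0 n c d‖ ≤ 1 / 400) (c : Fin 3) : ‖Nv n J c - n c‖ ≤ 1 / 16 := by
  have e : Nv n J = n + N1 n (P0 n) (J - P0 n) + Nv n (J - P0 n) := by
    conv_lhs => rw [← add_sub_cancel (P0 n) J, Nv_add, Nv_P0]
  have h1 : ‖N1 n (P0 n) (J - P0 n) c‖ ≤ _ := dot_le (v := fun d => _ + _) hn fun d =>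
    norm_add_le_of_le (cr_le (P0_le hn _) (hJ _) c) (cr_le (hJ _) (P0_le hn _) c)
  have h2 : ‖Nv n (J - P0 n) c‖ ≤ _ := dot_le (v := fun d => cr _ _ c) hn fun d =>
    cr_le (hJ _) (hJ _) c
  rw [e, Pi.add_apply, Pi.add_apply, add_assoc, add_sub_cancel_left]
  exact (norm_add_le_of_le h1 h2).trans (by norm_num)

theorem G2_sub_le {J : Fin 3 → Fin 3 → ℂ} (hn : ∀ c, ‖n c‖ ≤ 1) (h1 : dot n n = 1)
    (hJ : ∀ c d, ‖J c d - P0 n c d‖ ≤ 1 / 400) : ‖G2 n J - 1‖ ≤ 1 / 2 := by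
  have e : G2 n J - 1 = 2 * dot n (Nv n J - n) + dot (Nv n J - n) (Nv n J - n) := by
    rw [← h1]; simp only [G2, dot, Fin.sum_univ_three, Pi.sub_apply]; ring
  have k := Nv_sub_le hn hJ
  rw [e]
  refine (norm_add_le_of_le (norm_mul_le_of_le (r₁ := 2) (by simp)
    (dot_le (v := Nv n J - n) hn k)) (dot_le (u := Nv n J - n) (v := Nv n J - n) k k)).trans ?_
  norm_num

theorem dot_sub_le {x : Fin 3 → ℂ} {r : ℝ} (hx : ∀ c, ‖x c‖ ≤ r) (h : ∀ c, ‖u c - x c‖ ≤ r / 400) :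
    ‖dot u u - dot x x‖ ≤ r ^ 2 / 50 := by
  have e : dot u u - dot x x = 2 * dot x (u - x) + dot (u - x) (u - x) := by
    simp only [dot, Fin.sum_univ_three, Pi.sub_apply]; ring
  rw [e]
  refine (norm_add_le_of_le (norm_mul_le_of_le (r₁ := 2) (by simp)
    (dot_le (v := u - x) hx h)) (dot_le (u := u - x) (v := u - x) h h)).trans ?_
  nlinarith [sq_nonneg r]

theorem slit_of {z : ℂ} (h : ‖z - 1‖ ≤ 1 / 2) : z ∈ Complex.slitPlane := by
  have := Complex.mem_slitPlane_of_norm_lt_one (z := z - 1) (h.trans_lt (by norm_num))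
  rwa [add_sub_cancel] at this

end Crest.Agent.N250.Av

end
end

-- ▼ part N250/Av/Core
section

/-!
# Row 250 (helper13): the core integrals `actC g Y` for maps `Y` close to the position vector
-/

set_option autoImplicit false
set_option linter.unusedSectionVars false
open MeasureTheory Set Filter Topology
open scoped ComplexConjugate

noncomputable section

namespace Crest.Agent.N250.WS.Geo

open Crest.Agent.N222 Gc Cj Av

variable {X : Type} [TopologicalSpace X] [MeasurableSpace X] (G : Geo X)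

/-- `√(1 + |x|²)` -/
def rt (p : X) : ℝ := √(1 + G.S.x2.1 p)

theorem rt_sq (p : X) : G.rt p ^ 2 = 1 + G.S.x2.1 p :=
  Real.sq_sqrt (add_nonneg zero_le_one (G.x2_nonneg p))

theorem one_le_rt (p : X) : 1 ≤ G.rt p :=
  Real.one_le_sqrt.2 (le_add_of_nonneg_right (G.x2_nonneg p))

theorem rt_le (p : X) : G.rt p ≤ 1 + G.S.x2.1 p := by
  rw [← G.rt_sq]; nlinarith [G.one_le_rt p]

theorem ρ_le_rt (p : X) : G.ρ.1 p ≤ G.rt p := Real.le_sqrt_of_sq_le (G.ρ_le p)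

theorem x2_eq (p : X) : G.S.x2.1 p = ∑ a, (G.S.x a).1 p * (G.S.x a).1 p := by
  rw [← ev_apply, Mov.x2, map_sum]
  exact Finset.sum_congr rfl fun a _ => map_mul _ _ _

theorem x_le_rt (c : Fin 3) (p : X) : ‖(G.SC.x c).1 p‖ ≤ G.rt p := by
  rw [SC_x, oR_apply, Complex.norm_real, Real.norm_eq_abs]
  refine Real.abs_le_sqrt ?_
  have := Finset.single_le_sum (f := fun a => (G.S.x a).1 p * (G.S.x a).1 p)
    (fun a _ => mul_self_nonneg _) (Finset.mem_univ c)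
  rw [x2_eq, pow_two]; linarith

theorem nC_le (p : X) (c : Fin 3) : ‖Cj.nC G p c‖ ≤ 1 := by
  have e := nn (G := G) p
  have := Finset.single_le_sum (f := fun a => (G.n a).1 p * (G.n a).1 p)
    (fun a _ => mul_self_nonneg _) (Finset.mem_univ c)
  rw [Cj.nC, Complex.norm_real, Real.norm_eq_abs, ← sq_le_one_iff_abs_le_one, pow_two]
  linarith

theorem nC_nC (p : X) : dot (Cj.nC G p) (Cj.nC G p) = 1 := by
  simp only [dot, Cj.nC]; exact_mod_cast nn (G := G) p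

theorem Dx_val (p : X) (a c : Fin 3) : (G.SC.D a (G.SC.x c)).1 p = P0 (Cj.nC G p) a c := by
  have := congrArg (Cj.ev G p) (congrFun (congrFun G.hypC.Jm_x a) c)
  simp only [P0, map_sub, map_mul, apply_ite (Cj.ev G p), map_one, map_zero] at this
  exact this

theorem dot_x (p : X) : (dot G.SC.x G.SC.x).1 p = (G.S.x2.1 p : ℂ) :=
  congrArg (fun f : G.SmC => f.1 p) G.SC_x2

/-- at `p` the map `Y` is `C¹`-close to the position vector -/
structure Cl (Y : Fin 3 → G.SmC) (p : X) : Prop where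
  y : ∀ c, ‖(Y c).1 p - (G.SC.x c).1 p‖ ≤ G.rt p / 400
  J : ∀ a c, ‖(G.SC.D a (Y c)).1 p - (G.SC.D a (G.SC.x c)).1 p‖ ≤ 1 / 400


namespace Cl

variable {G} {Y : Fin 3 → G.SmC} {p : X} (h : G.Cl Y p)
include h

theorem J' (a c : Fin 3) : ‖JC Y p a c - P0 (Cj.nC G p) a c‖ ≤ 1 / 400 := G.Dx_val p a c ▸ h.J a c

theorem GX_sub : ‖(G.SC.GX Y).1 p - 1‖ ≤ 1 / 2 := by
  rw [GX_val]; exact G2_sub_le (G.nC_le p) (G.nC_nC p) h.J'


theorem slit : (G.SC.GX Y).1 p ∈ Complex.slitPlane := slit_of h.GX_sub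

theorem GX_ge : 1 / 2 ≤ ‖(G.SC.GX Y).1 p‖ := by
  have := norm_sub_norm_le 1 ((G.SC.GX Y).1 p)
  rw [norm_sub_rev, norm_one] at this
  linarith [h.GX_sub]

theorem GX_le : ‖(G.SC.GX Y).1 p‖ ≤ 3 / 2 := by
  have := norm_sub_norm_le ((G.SC.GX Y).1 p) 1
  rw [norm_one] at this
  linarith [h.GX_sub]

theorem sq_le : ‖G.sq Y p‖ ≤ 2 := by
  refine abs_le_of_sq_le_sq' (b := 2) ?_ zero_le_two |>.2
  rw [← norm_pow, Act.sqrt_sq']; linarith [h.GX_le]

theorem Y_le (c : Fin 3) : ‖(Y c).1 p‖ ≤ 2 * G.rt p := by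
  have := norm_sub_norm_le ((Y c).1 p) ((G.SC.x c).1 p)
  linarith [h.y c, G.x_le_rt c p, G.one_le_rt p]

theorem J_le (a c : Fin 3) : ‖(G.SC.D a (Y c)).1 p‖ ≤ 3 := by
  have := norm_sub_norm_le (JC Y p a c) (P0 (Cj.nC G p) a c)
  change ‖JC Y p a c‖ ≤ 3
  linarith [h.J' a c, P0_le (G.nC_le p) a c]

theorem dot_sub : ‖(dot Y Y).1 p - G.S.x2.1 p‖ ≤ (1 + G.S.x2.1 p) / 50 := by
  rw [← G.dot_x, dot_val, dot_val, ← G.rt_sq]
  exact dot_sub_le (x := val G.SC.x p) (fun c => G.x_le_rt c p) h.y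

theorem re_ge : 4 / 5 * G.S.x2.1 p - 1 ≤ ((dot Y Y).1 p).re := by
  have h1 := (abs_le.1 ((Complex.abs_re_le_norm _).trans h.dot_sub)).1
  rw [Complex.sub_re, Complex.ofReal_re] at h1
  linarith [G.x2_nonneg p]

theorem eX_le : ‖G.eX Y p‖ ≤ 3 * Real.exp (-(1 / 5 * G.S.x2.1 p)) := by
  rw [Complex.norm_exp, Complex.div_ofNat_re, Complex.neg_re]
  refine (Real.exp_le_exp.2 (show _ ≤ 1 + -(1 / 5 * G.S.x2.1 p) by linarith [h.re_ge])).trans ?_
  rw [Real.exp_add]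
  exact mul_le_mul_of_nonneg_right (Real.exp_one_lt_three).le (Real.exp_pos _).le

theorem lag_le (g : G.SmC) :
    ‖G.lagC g Y p‖ ≤ ‖g.1 p‖ * (6 * Real.exp (-(1 / 5 * G.S.x2.1 p))) :=
  norm_mul_le_of_le le_rfl ((norm_mul_le_of_le h.eX_le h.sq_le).trans_eq (by ring))

theorem cj : G.Cl (fun c => G.cj (Y c)) p where
  y c := by
    rw [← G.homCj.x, cj_apply, cj_apply, ← map_sub, Complex.norm_conj]; exact h.y c
  J a c := by
    rw [← G.homCj.x, ← cj_D, ← cj_D, cj_apply, cj_apply, ← map_sub, Complex.norm_conj]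
    exact h.J a c

end Cl

/-! ### value at the position vector, conjugation, real data -/

theorem lagC_x (g : G.SmC) (p : X) :
    G.lagC g G.SC.x p = Real.exp (-G.S.x2.1 p / 4) • g.1 p := by
  rw [lagC, G.hypC.GX_x, dot_x, show (1 : G.SmC).1 p = 1 from rfl, Complex.sqrt_one,
    Complex.real_smul]
  push_cast; ring

theorem sqrt_conj {z : ℂ} (h : z ∈ Complex.slitPlane) :
    Complex.sqrt (conj z) = conj (Complex.sqrt z) := by
  rw [Complex.sqrt, Complex.sqrt, Complex.conj_cpow _ _ (Complex.slitPlane_arg_ne_pi h),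
    map_inv₀, map_ofNat]

theorem lagC_cj {g : G.SmC} {Y : Fin 3 → G.SmC} {p : X}
    (h : g.1 p ≠ 0 → (G.SC.GX Y).1 p ∈ Complex.slitPlane) :
    G.lagC (G.cj g) (fun c => G.cj (Y c)) p = conj (G.lagC g Y p) := by
  by_cases h0 : g.1 p = 0
  · simp [lagC, h0]
  rw [lagC, lagC, ← G.homCj.GX, ← map_dot, cj_apply, cj_apply, cj_apply, sqrt_conj (h h0),
    map_mul, map_mul, ← Complex.exp_conj, map_div₀, map_neg, map_ofNat]

theorem actC_cj {g : G.SmC} {Y : Fin 3 → G.SmC}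
    (h : ∀ p, g.1 p ≠ 0 → (G.SC.GX Y).1 p ∈ Complex.slitPlane) :
    G.actC (G.cj g) (fun c => G.cj (Y c)) = conj (G.actC g Y) := by
  rw [actC, actC, ← integral_conj]
  exact integral_congr_ae (.of_forall fun p => G.lagC_cj (h p))




variable [BorelSpace X]

theorem int_ga {F : Type} [NormedAddCommGroup F] [NormedSpace ℝ F] (f : X → F) :
    ∫ p, f p ∂G.ga = ∫ p, Real.exp (-G.S.x2.1 p / 4) • f p ∂G.M.mu := by
  have hc : Continuous fun p => Real.exp (-G.S.x2.1 p / 4) :=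
    ((G.contR _).neg.div_const 4).rexp
  rw [ga, integral_withDensity_eq_integral_toReal_smul hc.measurable.ennreal_ofReal
    (.of_forall fun _ => ENNReal.ofReal_lt_top)]
  simp only [ENNReal.toReal_ofReal (Real.exp_pos _).le]

theorem actC_x (g : G.SmC) : G.actC g G.SC.x = ∫ p, g.1 p ∂G.ga := by
  rw [int_ga, actC]; simp only [lagC_x]

theorem actC_x_ipC (s : G.R) (u : G.SmC) : G.actC (G.oR s * u) G.SC.x = G.ipC s u := G.actC_x _

theorem actC_x_oR (g : G.R) :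
    G.actC (G.oR g) G.SC.x = (∫ p, g.1 p * Real.exp (-G.S.x2.1 p / 4) ∂G.M.mu : ℝ) := by
  rw [actC, ← integral_complex_ofReal]
  simp only [lagC_x, oR_apply, Complex.real_smul, Complex.ofReal_mul, mul_comm]

theorem aesm_lagC (g : G.SmC) (Y : Fin 3 → G.SmC) : AEStronglyMeasurable (G.lagC g Y) G.M.mu :=
  ((G.contC _).measurable.mul ((G.contC (G.eY Y)).measurable.mul
    ((G.contC _).measurable.pow_const _))).aestronglyMeasurable

/-! ### holomorphic families -/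

variable {V : Type} [NormedAddCommGroup V] [NormedSpace ℂ V]

/-- a holomorphic family of bounded weights vanishing off `K` and of maps close to `x` on `K` -/
structure CFam (K : Set X) (U : Set V) (C : ℝ) (g : V → G.SmC) (Y : V → Fin 3 → G.SmC) : Prop where
  op : IsOpen U
  off : ∀ z ∈ U, ∀ p, p ∉ K → (g z).1 p = 0
  bd : ∀ z ∈ U, ∀ p ∈ K, ‖(g z).1 p‖ ≤ C * G.rt p
  cl : ∀ z ∈ U, ∀ p ∈ K, G.Cl (Y z) p
  hg : ∀ p ∈ K, DifferentiableOn ℂ (fun z => (g z).1 p) U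
  hY : ∀ p ∈ K, ∀ c, DifferentiableOn ℂ (fun z => (Y z c).1 p) U
  hJ : ∀ p ∈ K, ∀ a c, DifferentiableOn ℂ (fun z => (G.SC.D a (Y z c)).1 p) U

/-- the constant `∫ 6 (1 + |x|²) exp (-|x|² / 5)` -/
def cW : ℝ := ∫ p, G.rt p * (6 * Real.exp (-(1 / 5 * G.S.x2.1 p))) ∂G.M.mu

theorem intg_cW : Integrable (fun p => G.rt p * (6 * Real.exp (-(1 / 5 * G.S.x2.1 p)))) G.M.mu := by
  refine ((G.intg_exp (δ := 1 / 10) (by norm_num)).const_mul 60).mono' ?_ (.of_forall fun p => ?_)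
  · exact ((continuous_const.add (G.contR _)).sqrt.mul (continuous_const.mul
      (continuous_const.mul (G.contR _)).neg.rexp)).aestronglyMeasurable
  · have h0 := G.one_le_rt p
    have h1 := Real.add_one_le_exp (1 / 10 * G.S.x2.1 p)
    have h2 : Real.exp (-(1 / 10 * G.S.x2.1 p)) =
        Real.exp (1 / 10 * G.S.x2.1 p) * Real.exp (-(1 / 5 * G.S.x2.1 p)) := by
      rw [← Real.exp_add]; congr 1; ring
    rw [Real.norm_of_nonneg (by positivity), h2]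
    nlinarith [G.rt_le p, Real.exp_pos (-(1 / 5 * G.S.x2.1 p)), G.x2_nonneg p]

namespace CFam

variable {G} {K : Set X} {U : Set V} {C : ℝ} {g : V → G.SmC} {Y : V → Fin 3 → G.SmC}
  (h : G.CFam K U C g Y) {z : V} {p : X}
include h

theorem hd (hz : z ∈ U) (hp : p ∈ K) : HD ℂ (fun v => G.lagC (g v) (Y v) p) z fun w =>
    G.dlagC (g z) (Y z) (fderiv ℂ (fun v => (g v).1 p) z w)
      (fun c => fderiv ℂ (fun v => (Y v c).1 p) z w)
      (fun a c => fderiv ℂ (fun v => (G.SC.D a (Y v c)).1 p) z w) p := by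
  have n := h.op.mem_nhds hz
  have d1 := HD.of_diff ((h.hg p hp).differentiableAt n)
  have d2 := fun c => HD.of_diff ((h.hY p hp c).differentiableAt n)
  have d3 := fun a c => HD.of_diff ((h.hJ p hp a c).differentiableAt n)
  have d4 := (HD.dot (u := fun v => val (Y v) p) (v := fun v => val (Y v) p) d2 d2).comp
    (ψ := fun w => Complex.exp (-w / 4)) ((hasDerivAt_neg _).div_const 4).cexp
  have s := (h.cl z hz p hp).slit
  have fr : Gc.Fr (Cj.nC G p) (JC (Y z) p) := ⟨G.nC_nC p, fun c => n_D _ p⟩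
  rw [GX_val] at s
  have d5 := (HD.G2 (J := fun v => JC (Y v) p) (Cj.nC G p) d3).comp (Act.sqrt_hd s)
  simp only [lagC, dlagC, dot_val, GX_val]
  refine (d1.mul (d4.mul d5)).congr fun w => ?_
  have e : ∀ a, val (G.SC.WX (Y z) a) p = Wv (JC (Y z) p) a := fun a => funext fun c => WX_val _ _ a c
  simp only [fr.dG2_eq, e, dot_comm _ (val (Y z) p)]
  ring

theorem lag_le (hz : z ∈ U) (p : X) : ‖G.lagC (g z) (Y z) p‖ ≤
    |C| * (G.rt p * (6 * Real.exp (-(1 / 5 * G.S.x2.1 p)))) := by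
  have h0 := G.one_le_rt p
  by_cases hp : p ∈ K
  · refine ((h.cl z hz p hp).lag_le _).trans ?_
    rw [← mul_assoc |C|]
    exact mul_le_mul_of_nonneg_right ((h.bd z hz p hp).trans
      (mul_le_mul_of_nonneg_right (le_abs_self C) (by linarith))) (by positivity)
  · rw [lagC, h.off z hz p hp, zero_mul, norm_zero]; positivity

theorem lag_diff (p : X) : DifferentiableOn ℂ (fun z => G.lagC (g z) (Y z) p) U := by
  by_cases hp : p ∈ K
  · exact fun z hz => (h.hd hz hp).diff.differentiableWithinAt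
  · exact (differentiableOn_const (0 : ℂ)).congr fun z hz => by
      rw [lagC, h.off z hz p hp, zero_mul]


theorem norm_le (hz : z ∈ U) : ‖G.actC (g z) (Y z)‖ ≤ |C| * G.cW :=
  (norm_integral_le_of_norm_le (G.intg_cW.const_mul _) (.of_forall (h.lag_le hz))).trans_eq
    (integral_const_mul _ _)

theorem diffOn : DifferentiableOn ℂ (fun z => G.actC (g z) (Y z)) U :=
  H.int_diffOn h.op (G.intg_cW.const_mul _) (fun _ _ => G.aesm_lagC _ _) (.of_forall h.lag_diff)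
    (.of_forall fun p _ hz => h.lag_le hz p)

theorem holAt (hz : z ∈ U) : ∀ᶠ w in 𝓝 z, DifferentiableAt ℂ (fun z => G.actC (g z) (Y z)) w :=
  (h.op.eventually_mem hz).mono fun _ hw => h.diffOn.differentiableAt (h.op.mem_nhds hw)

theorem fd_int (hz : z ∈ U) (v : V) :
    Integrable (fun p => fderiv ℂ (fun z => G.lagC (g z) (Y z) p) z v) G.M.mu ∧
    fderiv ℂ (fun z => G.actC (g z) (Y z)) z v =
      ∫ p, fderiv ℂ (fun z => G.lagC (g z) (Y z) p) z v ∂G.M.mu :=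
  H.int_fderiv h.op (G.intg_cW.const_mul _) (fun _ _ => G.aesm_lagC _ _) (.of_forall h.lag_diff)
    (.of_forall fun p _ hz => h.lag_le hz p) hz v

/-- the derivative where the weight vanishes -/
theorem fd_zero (hz : z ∈ U) (h0 : ∀ p ∈ K, (g z).1 p = 0) (v : V) {g' : G.SmC}
    (h1 : ∀ p, p ∉ K → g'.1 p = 0) (h2 : ∀ p ∈ K, fderiv ℂ (fun z => (g z).1 p) z v = g'.1 p) :
    fderiv ℂ (fun z => G.actC (g z) (Y z)) z v = G.actC g' (Y z) := by
  refine (h.fd_int hz v).2.trans (integral_congr_ae (.of_forall fun p => ?_))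
  by_cases hp : p ∈ K
  · simp only [(h.hd hz hp).eq]
    simp only [dlagC, lagC, h0 p hp, h2 p hp]
    ring
  · have e : (fun v => G.lagC (g v) (Y v) p) =ᶠ[𝓝 z] fun _ => 0 :=
      (h.op.eventually_mem hz).mono fun v hv => by simp only [lagC, h.off v hv p hp, zero_mul]
    simp only [e.fderiv_eq]
    simp [lagC, h1 p hp]

theorem cj_eq (hz : z ∈ U) :
    G.actC (G.cj (g z)) (fun c => G.cj (Y z c)) = conj (G.actC (g z) (Y z)) :=
  G.actC_cj fun p hp => (h.cl z hz p (by_contra fun k => hp (h.off z hz p k))).slit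

end CFam

end Crest.Agent.N250.WS.Geo

end
end

-- ▼ part N250/Av/CoreX

/-!
# Row 250 (helper13): the maps `M (x + u Z)` are close to `x`; core integrals in the jets
-/

set_option autoImplicit false
set_option linter.unusedSectionVars false
open MeasureTheory Set Filter Topology Metric

noncomputable section

namespace Crest.Agent.N250.Nq.Dt

open Gc WS

variable {X : Type} [TopologicalSpace X] [MeasurableSpace X] {G : Geo X} {J κ : Type}
  [Fintype J] [Fintype κ] (D : Dt G J κ)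

theorem mv_val (T : Mt J) (w : Fin 3 → G.R) (c : Fin 3) (p : X) :
    (D.mv T w c).1 p = ∑ j, ∑ d, T j c d * ((D.χ j * w d).1 p : ℂ) := by
  rw [← Cj.ev_apply, mv]
  simp only [map_sum (Cj.ev G p)]
  rfl

theorem D_mv_val (T : Mt J) (w : Fin 3 → G.R) (a c : Fin 3) (p : X) :
    (G.SC.D a (D.mv T w c)).1 p = ∑ j, ∑ d, T j c d * ((G.S.D a (D.χ j * w d)).1 p : ℂ) := by
  rw [← Cj.ev_apply, mv, ← G.DLin_apply]
  simp only [map_sum (G.DLin a), map_smul (G.DLin a), G.DLin_apply, G.D_oR, map_sum (Cj.ev G p)]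
  rfl

theorem Xh_val (u : G.SmC) (T : Mt J) (c : Fin 3) (p : X) : (D.Xh u T c).1 p = (G.SC.x c).1 p +
    ((D.mv T G.S.x c).1 p + u.1 p * (((D.Z c).1 p : ℂ) + (D.mv T D.Z c).1 p)) := rfl

theorem D_Xh_val (u : G.SmC) (T : Mt J) (a c : Fin 3) (p : X) :
    (G.SC.D a (D.Xh u T c)).1 p = (G.SC.D a (G.SC.x c)).1 p + ((G.SC.D a (D.mv T G.S.x c)).1 p +
      (u.1 p * (((G.S.D a (D.Z c)).1 p : ℂ) + (G.SC.D a (D.mv T D.Z c)).1 p) +
        (G.SC.D a u).1 p * (((D.Z c).1 p : ℂ) + (D.mv T D.Z c).1 p))) := by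
  have e : G.SC.D a (D.Xh u T c) = G.SC.D a (G.SC.x c) + (G.SC.D a (D.mv T G.S.x c) +
      (u * (G.oR (G.S.D a (D.Z c)) + G.SC.D a (D.mv T D.Z c)) + G.SC.D a u * D.VV T c)) := by
    simp only [Xh, yy, VV, Pi.add_apply, G.hypC.add, G.hypC.mul, G.D_oR]
  rw [e]; rfl

theorem Xh_zero : D.Xh 0 0 = G.SC.x := by
  funext c; simp [Xh, yy, mv]

theorem sum_le {T : Mt J} {f : J → Fin 3 → ℝ} {η B r : ℝ} (hT : ‖T‖ ≤ η)
    (hf : ∀ j d, r * |f j d| ≤ B) (hr : 0 ≤ r) (c : Fin 3) :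
    r * ‖∑ j, ∑ d, T j c d * (f j d : ℂ)‖ ≤ η * (3 * Fintype.card J * B) := by
  have k : ∀ j d, r * ‖T j c d * (f j d : ℂ)‖ ≤ η * B := fun j d => by
    rw [norm_mul, Complex.norm_real, Real.norm_eq_abs, mul_left_comm]
    exact mul_le_mul (((norm_le_pi_norm _ d).trans ((norm_le_pi_norm _ c).trans
      (norm_le_pi_norm T j))).trans hT) (hf j d) (by positivity) ((norm_nonneg _).trans hT)
  refine (mul_le_mul_of_nonneg_left (norm_sum_le_of_le _ fun j _ => norm_sum_le _ _) hr).trans ?_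
  simp only [Finset.mul_sum]
  refine (Finset.sum_le_sum fun j _ => Finset.sum_le_sum fun d _ => k j d).trans_eq ?_
  simp only [Finset.sum_const, Finset.card_univ, Fintype.card_fin, nsmul_eq_mul]
  push_cast; ring

theorem bd_cs {χ : G.R} (hc : HasCompactSupport (G.ζ * χ).1) (w : G.R) : ∃ B : ℝ, ∀ p,
    G.ζ.1 p = 1 → |(χ * w).1 p| ≤ B ∧ ∀ a, G.ρ.1 p * |(G.S.D a (χ * w)).1 p| ≤ B := by
  have h1 : Continuous fun p => |(χ * w).1 p| + ∑ a, G.ρ.1 p * |(G.S.D a (χ * w)).1 p| :=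
    (G.contR _).abs.add (continuous_finsetSum _ fun a _ => (G.contR _).mul (G.contR _).abs)
  obtain ⟨B, hB⟩ := hc.isCompact.exists_bound_of_continuousOn h1.continuousOn
  refine ⟨|B|, fun p hp => ?_⟩
  have h0 := fun a => mul_nonneg (G.ρ_pos p).le (abs_nonneg ((G.S.D a (χ * w)).1 p))
  by_cases k : p ∈ tsupport (G.ζ * χ).1
  · have h2 := ((le_abs_self _).trans (hB p k)).trans (le_abs_self B)
    refine ⟨by linarith [Finset.sum_nonneg (s := Finset.univ) fun a _ => h0 a], fun a => ?_⟩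
    linarith [Finset.single_le_sum (fun a _ => h0 a) (Finset.mem_univ a), abs_nonneg ((χ * w).1 p)]
  · have h3 : p ∉ tsupport (χ * w).1 := by
      rw [notMem_tsupport_iff_eventuallyEq] at k ⊢
      filter_upwards [k, (G.contR G.ζ).continuousAt.eventually_ne (hp.trans_ne one_ne_zero)]
        with q h4 h5
      exact mul_eq_zero_of_left ((mul_eq_zero.1 h4).resolve_left h5) _
    refine ⟨?_, fun a => ?_⟩
    · rw [image_eq_zero_of_notMem_tsupport h3, abs_zero]; exact abs_nonneg _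
    · rw [G.D_eq_zero_of_notMem h3, abs_zero, mul_zero]; exact abs_nonneg _

variable {D}

theorem Good.bd (h : D.Good) : ∃ B : ℝ, 0 ≤ B ∧ ∀ p, G.ζ.1 p = 1 →
    (∀ c, |(D.Z c).1 p| ≤ B) ∧ (∀ a c, G.ρ.1 p * |(G.S.D a (D.Z c)).1 p| ≤ B) ∧
    ∀ j d, (|(D.χ j * G.S.x d).1 p| ≤ B ∧ ∀ a, G.ρ.1 p * |(G.S.D a (D.χ j * G.S.x d)).1 p| ≤ B) ∧
      |(D.χ j * D.Z d).1 p| ≤ B ∧ ∀ a, G.ρ.1 p * |(G.S.D a (D.χ j * D.Z d)).1 p| ≤ B := by
  have e : ∀ {P : ℝ → Prop}, (∃ B, ∀ B', B ≤ B' → P B') → ∀ᶠ B in atTop, P B := fun h =>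
    eventually_atTop.2 h
  have h1 : ∀ c, ∀ᶠ B in atTop, ∀ p, |(D.Z c).1 p| ≤ B := fun c => e (by
    obtain ⟨C, hC⟩ := h.symZ c []
    refine ⟨C, fun B hB p => le_trans ?_ hB⟩
    have := hC p
    rwa [List.length_nil, Nat.cast_zero, sub_zero, zpow_zero, mul_one] at this)
  have h2 : ∀ a c, ∀ᶠ B in atTop, ∀ p, G.ρ.1 p * |(G.S.D a (D.Z c)).1 p| ≤ B := fun a c => e (by
    obtain ⟨C, hC⟩ := h.symZ c [a]
    refine ⟨C, fun B hB p => le_trans ?_ hB⟩
    have := hC p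
    rwa [List.length_singleton, Nat.cast_one, zero_sub, zpow_neg_one, ← div_eq_mul_inv,
      le_div_iff₀' (G.ρ_pos p)] at this)
  have h3 : ∀ j (w : G.R), ∀ᶠ B in atTop, ∀ p, G.ζ.1 p = 1 →
      |(D.χ j * w).1 p| ≤ B ∧ ∀ a, G.ρ.1 p * |(G.S.D a (D.χ j * w)).1 p| ≤ B := fun j w => e (by
    obtain ⟨C, hC⟩ := bd_cs (h.cχ j) w
    exact ⟨C, fun B hB p hp => ⟨(hC p hp).1.trans hB, fun a => ((hC p hp).2 a).trans hB⟩⟩)
  obtain ⟨B, k0, k1, k2, k3⟩ := ((eventually_ge_atTop 0).and ((eventually_all.2 h1).and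
    ((eventually_all.2 fun a => eventually_all.2 (h2 a)).and (eventually_all.2 fun j =>
      eventually_all.2 fun d => (h3 j (G.S.x d)).and (h3 j (D.Z d)))))).exists
  exact ⟨B, k0, fun p hp => ⟨fun c => k1 c p, fun a c => k2 a c p,
    fun j d => ⟨(k3 j d).1 p hp, (k3 j d).2 p hp⟩⟩⟩

/-- small jets and small rotations give maps close to `x` -/
theorem Good.cl (h : D.Good) : ∃ η : ℝ, 0 < η ∧ η ≤ 1 ∧ ∀ (u : G.SmC) (T : Mt J) (p : X),
    G.ζ.1 p = 1 → ‖T‖ ≤ η → ‖u.1 p‖ ≤ η * G.ρ.1 p → (∀ a, ‖(G.SC.D a u).1 p‖ ≤ η) →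
    G.Cl (D.Xh u T) p := by
  obtain ⟨B, hB, h⟩ := h.bd
  set M : ℝ := 3 * Fintype.card J * B with hM
  have M0 : 0 ≤ M := by positivity
  obtain ⟨η, η0, η1, η2⟩ : ∃ η : ℝ, 0 < η ∧ η ≤ 1 ∧ η * (B + M) ≤ 1 / 1200 :=
    ⟨1 / (1200 * (B + M) + 1), by positivity, (div_le_one (by positivity)).2 (by nlinarith), by
      rw [div_mul_eq_mul_div, div_le_div_iff₀ (by positivity) (by norm_num)]; linarith⟩
  refine ⟨η, η0, η1, fun u T p hp hT hu hD => ?_⟩
  obtain ⟨a1, a2, a3⟩ := h p hp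
  have r1 := G.one_le p
  have r2 := G.ρ_le_rt p
  have s0 : ∀ {f : J → Fin 3 → ℝ}, (∀ j d, |f j d| ≤ B) → ∀ c,
      ‖∑ j, ∑ d, T j c d * (f j d : ℂ)‖ ≤ η * M := fun hf c => by
    simpa using sum_le (r := 1) hT (by simpa using hf) zero_le_one c
  have hM' : η * M ≤ M := mul_le_of_le_one_left M0 η1
  have hB' : 0 ≤ η * B := by positivity
  have hV : ∀ c, ‖((D.Z c).1 p : ℂ) + (D.mv T D.Z c).1 p‖ ≤ B + M := fun c =>
    norm_add_le_of_le (by simpa using a1 c)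
      (D.mv_val T _ c p ▸ (s0 (fun j d => (a3 j d).2.1) c).trans hM')
  refine ⟨fun c => ?_, fun a c => ?_⟩
  · rw [Xh_val, add_sub_cancel_left]
    refine (norm_add_le_of_le (D.mv_val T _ c p ▸ s0 (fun j d => (a3 j d).1.1) c)
      (norm_mul_le_of_le hu (hV c))).trans ?_
    nlinarith [mul_le_mul_of_nonneg_left η2 (zero_le_one.trans r1)]
  · rw [D_Xh_val, add_sub_cancel_left]
    have b1 := sum_le hT (fun j d => (a3 j d).1.2 a) (zero_le_one.trans r1) c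
    have b2 := sum_le hT (fun j d => (a3 j d).2.2 a) (zero_le_one.trans r1) c
    rw [← D_mv_val, ← hM] at b1 b2
    have b3 : G.ρ.1 p * ‖((G.S.D a (D.Z c)).1 p : ℂ) + (G.SC.D a (D.mv T D.Z c)).1 p‖ ≤ B + M := by
      refine (mul_le_mul_of_nonneg_left (norm_add_le _ _) (zero_le_one.trans r1)).trans ?_
      rw [mul_add, Complex.norm_real, Real.norm_eq_abs]
      linarith [a2 a c]
    refine (norm_add_le_of_le ((le_mul_of_one_le_left (norm_nonneg _) r1).trans b1)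
      (norm_add_le_of_le (norm_mul_le_of_le hu le_rfl) (norm_mul_le_of_le (hD a) (hV c)))).trans ?_
    nlinarith [mul_le_mul_of_nonneg_left b3 η0.le]

section Hol

variable {V : Type} [NormedAddCommGroup V] [NormedSpace ℂ V] {U : Set V} {u : V → G.SmC}
  {T : V → Mt J} {p : X} (D)

theorem diff_sum (hT : DifferentiableOn ℂ T U) (f : J → Fin 3 → ℂ) (c : Fin 3) :
    DifferentiableOn ℂ (fun z => ∑ j, ∑ d, T z j c d * f j d) U :=
  DifferentiableOn.fun_sum fun j _ => DifferentiableOn.fun_sum fun d _ =>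
    (differentiableOn_pi.1 (differentiableOn_pi.1 (differentiableOn_pi.1 hT j) c) d).mul_const _

theorem diff_Xh (hT : DifferentiableOn ℂ T U) (hu : DifferentiableOn ℂ (fun z => (u z).1 p) U)
    (c : Fin 3) : DifferentiableOn ℂ (fun z => (D.Xh (u z) (T z) c).1 p) U := by
  simp only [Xh_val, mv_val]
  exact ((diff_sum hT _ c).fun_add (hu.fun_mul ((diff_sum hT _ c).const_add _))).const_add _

theorem diff_D_Xh (hT : DifferentiableOn ℂ T U) (hu : DifferentiableOn ℂ (fun z => (u z).1 p) U)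
    (a : Fin 3) (hD : DifferentiableOn ℂ (fun z => (G.SC.D a (u z)).1 p) U) (c : Fin 3) :
    DifferentiableOn ℂ (fun z => (G.SC.D a (D.Xh (u z) (T z) c)).1 p) U := by
  simp only [D_Xh_val, mv_val, D_mv_val]
  exact ((diff_sum hT _ c).fun_add ((hu.fun_mul ((diff_sum hT _ c).const_add _)).fun_add
    (hD.fun_mul ((diff_sum hT _ c).const_add _)))).const_add _

end Hol

theorem cj_mv (T : Mt J) (w : Fin 3 → G.R) (c : Fin 3) :
    G.cj (D.mv T w c) = D.mv (star T) w c := by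
  simp only [mv, map_sum, G.cj_smul, G.cj_oR]; rfl

theorem cj_Xh (u : G.SmC) (T : Mt J) (c : Fin 3) :
    G.cj (D.Xh u T c) = D.Xh (G.cj u) (star T) c := by
  simp only [Xh, yy, VV, Pi.add_apply, map_add, map_mul, cj_mv, G.cj_oR, G.homCj.x]

section Jets

variable [BorelSpace X] {σ : Scale G} {κ' : Type} [Fintype κ'] {ψ : κ' → G.R} (Jt : σ.Jets ψ)
  {V : Type} [NormedAddCommGroup V] [NormedSpace ℂ V] (π : V →L[ℂ] σ.AA × (κ' → ℂ))
  {T : V → Mt J} {p : X}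

theorem w_val (ξ : σ.AA × (κ' → ℂ)) (hp : G.ζ.1 p = 1) :
    (σ.wG ψ ξ).1 p = G.ρ.1 p * σ.evL p (Jt.J0 ξ) := by
  rw [Scale.evL_apply, Jt.val0]
  change _ = _ * (((G.ζ.1 p * G.ι.1 p : ℝ) : ℂ) * _)
  rw [hp, one_mul, ← mul_assoc, ← Complex.ofReal_mul, G.ρι_ev, Complex.ofReal_one, one_mul]

theorem Dw_val (ξ : σ.AA × (κ' → ℂ)) (hp : G.ζ.1 p = 1) (a : Fin 3) :
    (G.SC.D a (σ.wG ψ ξ)).1 p = σ.evL p (Jt.J1 a ξ) := by
  rw [Scale.evL_apply, Jt.val1]
  change _ = ((G.ζ.1 p : ℝ) : ℂ) * _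
  rw [hp, Complex.ofReal_one, one_mul]

include Jt

theorem w_zero (hp : G.ζ.1 p = 1) : (σ.wG ψ (π 0)).1 p = 0 := by
  rw [w_val Jt _ hp]; simp only [map_zero, mul_zero]

theorem hasF_w (hp : G.ζ.1 p = 1) (z : V) : HasFDerivAt (fun z => (σ.wG ψ (π z)).1 p)
    ((G.ρ.1 p : ℂ) • (σ.evL p).comp (Jt.J0.comp π)) z := by
  simp only [w_val Jt _ hp]
  exact ((σ.evL p).comp (Jt.J0.comp π)).hasFDerivAt.const_mul _

theorem fd_w (hp : G.ζ.1 p = 1) (z v : V) :
    fderiv ℂ (fun z => (σ.wG ψ (π z)).1 p) z v = (σ.wG ψ (π v)).1 p := by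
  rw [(hasF_w Jt π hp z).fderiv, w_val Jt _ hp]; rfl

theorem diff_Dw (hp : G.ζ.1 p = 1) (a : Fin 3) :
    Differentiable ℂ fun z => (G.SC.D a (σ.wG ψ (π z))).1 p := by
  simp only [Dw_val Jt _ hp]
  exact ((σ.evL p).comp ((Jt.J1 a).comp π)).differentiable

/-- the core families: constant weights and weights `s w` -/
theorem Good.cfam (h : D.Good) (hT : ∀ᶠ z in 𝓝 0, DifferentiableAt ℂ T z) (h0 : T 0 = 0) :
    ∃ r : ℝ, 0 < r ∧ ∀ (s : G.R) (C : ℝ), (∀ p, s.1 p ≠ 0 → G.ζ.1 p = 1) → (∀ p, |s.1 p| ≤ C) →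
      G.CFam {p | G.ζ.1 p = 1} (ball 0 r) C (fun _ => G.oR s)
        (fun z => D.Xh (σ.wG ψ (π z)) (T z)) ∧
      G.CFam {p | G.ζ.1 p = 1} (ball 0 r) C (fun z => G.oR s * σ.wG ψ (π z))
        fun z => D.Xh (σ.wG ψ (π z)) (T z) := by
  obtain ⟨η, η0, η1, hc⟩ := h.cl
  have k : ∀ {W : Type} [NormedAddCommGroup W] {f : V → W}, ContinuousAt f 0 → f 0 = 0 →
      ∀ᶠ z in 𝓝 0, ‖f z‖ ≤ η := fun hf h0 =>
    (hf.norm.eventually (gt_mem_nhds (by simpa only [h0, norm_zero] using η0))).mono fun _ => le_of_lt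
  obtain ⟨r, r0, hr⟩ := Metric.eventually_nhds_iff_ball.1 (hT.and
    ((k hT.self_of_nhds.continuousAt h0).and
      ((k (Jt.J0.comp π).continuous.continuousAt (map_zero _)).and (eventually_all.2 fun a =>
        k ((Jt.J1 a).comp π).continuous.continuousAt (map_zero _)))))
  have dT : DifferentiableOn ℂ T (ball 0 r) := fun z hz => (hr z hz).1.differentiableWithinAt
  have b0 : ∀ z ∈ ball 0 r, ∀ p, G.ζ.1 p = 1 → ‖(σ.wG ψ (π z)).1 p‖ ≤ η * G.ρ.1 p :=
    fun z hz p hp => by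
      rw [w_val Jt _ hp, norm_mul, Complex.norm_real, Real.norm_of_nonneg (G.ρ_pos p).le, mul_comm]
      exact mul_le_mul_of_nonneg_right ((Scale.norm_val_le _ p).trans (hr z hz).2.2.1)
        (G.ρ_pos p).le
  have cl : ∀ z ∈ ball 0 r, ∀ p, G.ζ.1 p = 1 → G.Cl (D.Xh (σ.wG ψ (π z)) (T z)) p :=
    fun z hz p hp => hc _ _ p hp (hr z hz).2.1 (b0 z hz p hp) fun a => by
      rw [Dw_val Jt _ hp]; exact (Scale.norm_val_le _ p).trans ((hr z hz).2.2.2 a)
  have dw : ∀ p, G.ζ.1 p = 1 → DifferentiableOn ℂ (fun z => (σ.wG ψ (π z)).1 p) (ball 0 r) :=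
    fun p hp z _ => (hasF_w Jt π hp z).differentiableAt.differentiableWithinAt
  have dY := fun p hp c => D.diff_Xh dT (dw p hp) c
  have dJ := fun p hp a c => D.diff_D_Xh dT (dw p hp) a (diff_Dw Jt π hp a).differentiableOn c
  refine ⟨r, r0, fun s C hs hC => ?_⟩
  have s0 : ∀ p, G.ζ.1 p ≠ 1 → (G.oR s).1 p = 0 := fun p hp =>
    Complex.ofReal_eq_zero.2 (by_contra fun k => hp (hs p k))
  have s1 : ∀ p, ‖(G.oR s).1 p‖ ≤ C := fun p => by simpa using hC p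
  have C0 : ∀ p : X, 0 ≤ C := fun p => (norm_nonneg _).trans (s1 p)
  refine ⟨⟨isOpen_ball, fun _ _ => s0, fun _ _ p _ =>
    (s1 p).trans (le_mul_of_one_le_right (C0 p) (G.one_le_rt p)), cl,
    fun _ _ => differentiableOn_const _, dY, dJ⟩, ⟨isOpen_ball, fun _ _ p hp =>
    mul_eq_zero_of_left (s0 p hp) _, fun z hz p hp => norm_mul_le_of_le (s1 p) ((b0 z hz p hp).trans
      ((mul_le_of_le_one_left (G.ρ_pos p).le η1).trans (G.ρ_le_rt p))), cl,
    fun p hp => (dw p hp).const_mul _, dY, dJ⟩⟩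

end Jets

end Crest.Agent.N250.Nq.Dt

end
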