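import Crest.Agent.N250.R0.Leaf
import Crest.Agent.N250.R0.CjE
import Crest.Agent.N250.Av.CoreX
import Crest.Agent.N250.Av.Lim
import Crest.Agent.N250.Wr.Cut
import Crest.Agent.N250.Wt.All
import Crest.Agent.N250.Gl.Fix2
import Crest.Agent.N250.S9.Idt
import Crest.Agent.N250.Se.Dic
import Crest.Agent.N250.Cf.Close
import Crest.Agent.N250.Xi.EndC
import Crest.Agent.N250.Av.CoreR
import Crest.Agent.N250.Fm.Act
import Crest.Agent.N250.Ec.Tube
import Crest.Agent.N250.Sw.Pg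
import Crest.Agent.N250.S9.Id

-- ▼ part N250/R0/LAct13
section

/-!
# Row 250 (helper37): the action of the glued family is holomorphic, bounded and real
-/

set_option autoImplicit false
open MeasureTheory Set Filter Topology Metric
open scoped ComplexConjugate
open Crest.GeometryTopology.MCF

noncomputable section

namespace Crest.Agent.N250.R0

open WS Wr B1 Gc
open Crest.Agent.N250.B2 (aa ofR)
open Crest.Agent.N250.Gi (KK)

variable {S : Mv}

namespace A13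

variable (T : St S)

theorem ze_one {a b : ℝ} (ha : -7 < a) (h : a < b) (hb : b ≤ 1) (p : S.sl 0)
    (hp : (T.ze a b).1 p ≠ 0) : T.G.ζ.1 p = 1 :=
  zeta_one_of_ne T.P.shr.st (a := T.R + a) (b := T.R + b) (by linarith [T.hR]) (by linarith)
    (by linarith [T.ha']) T.P.hab (p := (p, 0)) p.2 hp

theorem ze_abs (a b : ℝ) (p : S.sl 0) : |(T.ze a b).1 p| ≤ 1 :=
  abs_le.2 ⟨le_trans (by norm_num) (zeta_nonneg (e := T.e) _ _ (p : E)), zeta_le_one _ _ _⟩

theorem diff_TT : Differentiable ℂ T.TT := by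
  refine differentiable_pi.2 fun j => differentiable_pi.2 fun c => differentiable_pi.2 fun d => ?_
  have h : Differentiable ℂ fun (β : T.Bt) (i : Fin 2) => β (j, i) :=
    differentiable_pi.2 fun i => differentiable_apply (j, i)
  exact fun β => DifferentiableAt.comp (g := fun b => Ro.TT (Cj.fQ (T.e.Q j)) b c d)
    (f := fun (β : T.Bt) (i : Fin 2) => β (j, i)) β (Ro.diff_TT' _ c d _) (h β)

theorem TT_zero : T.TT 0 = 0 := funext fun _ => Ro.TT_zero _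

theorem TT_cj (β : T.Bt) : T.TT (star β) = star (T.TT β) := by
  funext j c d
  exact Ro.TT_conj (Ro.fQ_conj (T.e.Q j)) (fun i => β (j, i)) c d


theorem cA_cont : Continuous T.cA :=
  Complex.continuous_ofReal.comp ((contDiff_st _ _).continuous.comp (by fun_prop))

theorem cA_le (s : ℝ) : ‖T.cA s‖ ≤ 1 := by
  rw [St.cA, Complex.norm_real, Real.norm_of_nonneg (st_nonneg _ _ _)]; exact st_le_one _ _ _

variable {T} (F : Fa T) {σ : Scale T.G}

theorem good : F.D.Good where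
  nZ := by rw [← T.Zn]; exact Finset.sum_congr rfl fun _ _ => mul_comm _ _
  symZ := T.Zs
  symZd := T.Zd
  cχ j := T.P.cs_zetaR_chiR T.P.ha' T.P.hab (a' := T.R + -3 / 2) (b' := T.R + -1)
    (by linarith [T.hR]) (by linarith) j
  cφ := F.grn.cs
  symcut := T.P.sy_zetaR (a := T.R + 1 / 10) (b := T.R + 1 / 5) (by linarith [T.hR]) (by linarith)
  cut := ze_one T (by norm_num) (by norm_num) (by norm_num)

theorem Y_cj (ξ : F.Ξ σ) : F.Y (F.cj ξ) = fun c => T.G.cj (F.Y ξ c) := funext fun c => by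
  rw [Fa.Y, Fa.Y, Nq.Dt.cj_Xh, CjE.w_cj, ← TT_cj]; rfl

/-- `(f, η, β) ↦ (f, η)` -/
def pr (σ : Scale T.G) : F.Ξ σ →L[ℂ] σ.AA × (F.I → ℂ) :=
  (ContinuousLinearMap.fst ℂ _ _).prod
    ((ContinuousLinearMap.fst ℂ _ _).comp (ContinuousLinearMap.snd ℂ _ _))

/-- the action of the core -/
theorem core (J : σ.Jets F.φ) : ∃ r C : ℝ, 0 < r ∧
    DifferentiableOn ℂ (fun ξ : F.Ξ σ => T.AC (F.Y ξ)) (ball 0 r) ∧ ∀ ξ ∈ ball (0 : F.Ξ σ) r,
      ‖T.AC (F.Y ξ)‖ ≤ C ∧ T.AC (F.Y (F.cj ξ)) = conj (T.AC (F.Y ξ)) := by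
  have hT : Differentiable ℂ fun ξ : F.Ξ σ => T.TT ξ.2.2 :=
    fun ξ => DifferentiableAt.comp (g := T.TT) (f := fun ξ : F.Ξ σ => ξ.2.2) ξ (diff_TT T _)
      (by fun_prop)
  obtain ⟨r, r0, h⟩ := (good F).cfam J (pr F σ) (T := fun ξ : F.Ξ σ => T.TT ξ.2.2)
    (Eventually.of_forall hT) (TT_zero T)
  have c : T.G.CFam {p | T.G.ζ.1 p = 1} (ball 0 r) 1 (fun _ => T.G.oR T.ζA) F.Y :=
    (h T.ζA 1 (ze_one T (by norm_num) (by norm_num) (by norm_num)) (ze_abs T _ _)).1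
  refine ⟨r, _, r0, c.diffOn, fun ξ hξ => ⟨c.norm_le hξ, ?_⟩⟩
  have e := c.cj_eq hξ
  rw [Geo.cj_oR] at e
  rw [Y_cj]
  exact e

theorem holAC (J : σ.Jets F.φ) : Gl.HolAt fun ξ : F.Ξ σ => T.AC (F.Y ξ) := by
  obtain ⟨r, C, r0, h, -⟩ := core F J
  filter_upwards [ball_mem_nhds _ r0] with ξ hξ using h.differentiableAt (isOpen_ball.mem_nhds hξ)

theorem Y_zero : F.Y (0 : F.Ξ σ) = T.G.SC.x := by
  have e : F.w (0 : F.Ξ σ) = 0 := map_zero (σ.wL F.grn)
  rw [Fa.Y, e, ← F.D.Xh_zero]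
  exact congrArg _ (TT_zero T)


theorem sg_jets : Sg fun σ : Scale T.G => Nonempty (σ.Jets F.φ) := F.grn.nonempty_jets T.G.mainS

variable {F} {N : ℕ} {ξ : ℂ × (F.I → ℂ) → F.Ξ σ} {ρ r X1 θ : ℝ} (h : F.Gf N ξ ρ r X1 θ)
  (hG : T.Good)
include h hG

theorem AE_diff (j : Fin T.p) : DifferentiableOn ℂ
    (fun q => T.AE (F.zE N q.1 (aa q.2) (ξ q) j)) (Om r (KK N - 1 / 4) X1 θ) := fun q hq =>
  (Act.actC_diffAt (cA_cont T).continuousOn T.R
    (y := (q.1, q.2 (Sum.inr j), Gi.Jq T.U N j (F.bq ξ j) q))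
    (hG.reg _ ((h.sv q hq).dom j)).1).comp_differentiableWithinAt q
    (f := fun q : ℂ × (F.I → ℂ) => (q.1, q.2 (Sum.inr j), Gi.Jq T.U N j (F.bq ξ j) q))
    (differentiableWithinAt_fst.prodMk (DifferentiableWithinAt.prodMk (by fun_prop)
      ((h.en j).diff j q hq)))

theorem AE_le (j : Fin T.p) {q : ℂ × (F.I → ℂ)} (hq : q ∈ Om r (KK N - 1 / 4) X1 θ) :
    ‖T.AE (F.zE N q.1 (aa q.2) (ξ q) j)‖ ≤ 120 := by
  obtain ⟨_, _, _, f⟩ := hG.fm
  have s := CjE.sl ((h.sv q hq).dom j)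
  exact (Av.Mem.of f.sz.ex f.sz.hR f.sz.hK s.1 s.2.jet f.sz.he s.3).actC_le fun s _ => cA_le T s

theorem AE_real (j : Fin T.p) {X : ℝ} {x : F.I → ℝ}
    (hq : ((X : ℂ), ofR x) ∈ Om r (KK N - 1 / 4) X1 θ) (e : F.cj (ξ (X, ofR x)) = ξ (X, ofR x)) :
    (T.AE (F.zE N X (aa (ofR x)) (ξ (X, ofR x)) j)).im = 0 := by
  obtain ⟨_, _, _, f⟩ := hG.fm
  have e1 := CjE.zE_cj F (h.en j).big.N0 (ξ (X, ofR x)) (a := aa (ofR x)) ((h.en j).hj j hq)
  rw [e, Complex.conj_ofReal, show star (aa (ofR x)) = aa (ofR x) from Gl.star_ofR (aa x)] at e1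
  have e2 := CjE.AE_cj f.sz ((h.sv _ hq).dom j)
  exact Complex.conj_eq_iff_im.1 (e2.symm.trans (congrArg T.AE e1.symm))

end A13

open A13 in
/-- parts 1-3 of `ActD` -/
theorem act13 {T : St S} (hG : T.Good) (F : Fa T) : Sg fun σ => F.AllG σ fun N ξ r X1 θ =>
    DifferentiableOn ℂ (F.Aq N ξ) (Om r (KK N - 1 / 4) X1 θ) ∧
    (∃ C : ℝ, ∀ q ∈ Om r (KK N - 1 / 4) X1 θ, ‖F.Aq N ξ q‖ ≤ C) ∧
    ∀ X : ℝ, X1 < X → ∀ x : F.I → ℝ, ofR x ∈ DomA r (KK N - 1 / 4) X →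
      (F.Aq N ξ (X, ofR x)).im = 0 := by
  refine (F.grn.nonempty_jets T.G.mainS).mono fun ε hε σ e => ?_
  obtain ⟨J⟩ := hε σ e
  obtain ⟨ρ, C, ρ0, hd, hb⟩ := core F J
  refine ⟨ρ, ρ0, fun N ξ r X1 θ h => ?_⟩
  have m : ∀ q ∈ Om r (KK N - 1 / 4) X1 θ, ξ q ∈ ball (0 : F.Ξ σ) ρ := fun q hq =>
    mem_ball_zero_iff.2 (h.small q hq).1
  refine ⟨(hd.comp h.hol m).add (DifferentiableOn.fun_sum fun j _ => AE_diff h hG j),
    ⟨C + ∑ _j : Fin T.p, 120, fun q hq => (norm_add_le _ _).trans (add_le_add (hb _ (m q hq)).1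
      (norm_sum_le_of_le _ fun j _ => AE_le h hG j hq))⟩, fun X hX x hx => ?_⟩
  have hq := Gl.real_mem (by linarith [h.X1_ge]) h.θ_pos hX hx
  have e : F.cj (ξ (X, ofR x)) = ξ (X, ofR x) := by rw [← h.cj X hX _ hx, Gl.star_ofR]
  have e2 := (hb _ (m _ hq)).2
  rw [e] at e2
  change (T.AC _ + ∑ j, T.AE _).im = 0
  rw [Complex.add_im, Complex.im_sum, Complex.conj_eq_iff_im.1 e2.symm, zero_add]
  exact Finset.sum_eq_zero fun j _ => AE_real h hG j hq e

end Crest.Agent.N250.R0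

end
end

-- ▼ part N250/R0/LActA
section

/-!
# Row 250 (helper68): the action along a glued family is holomorphic, bounded and real
-/

set_option autoImplicit false
open MeasureTheory Set Filter Topology Metric
open scoped ComplexConjugate
open Crest.GeometryTopology.MCF

noncomputable section

namespace Crest.Agent.N250.R0

open WS Wr B1 Gc
open Crest.Agent.N250.B2 (aa ofR)
open Crest.Agent.N250.Gi (KK)
open Crest.Agent.N250.Gl (HolAt yy)

variable {S : Mv} {T : St S}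

theorem St.Good.sz (h : T.Good) : CjE.Sz' T := let ⟨_, _, _, h⟩ := h.fm; h.sz




namespace Fa

variable {F : Fa T} {σ : Scale T.G}

theorem Gf.mono {N : ℕ} {ξ : ℂ × (F.I → ℂ) → F.Ξ σ} {ρ ρ' r X1 θ : ℝ} (h : F.Gf N ξ ρ r X1 θ)
    (hρ : ρ ≤ ρ') : F.Gf N ξ ρ' r X1 θ :=
  { h with small := fun q hq => ⟨(h.small q hq).1.trans_le hρ, (h.small q hq).2.trans_le hρ⟩ }

theorem AllG.and {P Q : ℕ → (ℂ × (F.I → ℂ) → F.Ξ σ) → ℝ → ℝ → ℝ → Prop} (h : F.AllG σ P)
    (h' : F.AllG σ Q) : F.AllG σ fun N ξ r X1 θ => P N ξ r X1 θ ∧ Q N ξ r X1 θ :=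
  let ⟨ρ, h0, h⟩ := h
  let ⟨ρ', h0', h'⟩ := h'
  ⟨min ρ ρ', lt_min h0 h0', fun N ξ r X1 θ g =>
    ⟨h N ξ r X1 θ (g.mono (min_le_left _ _)), h' N ξ r X1 θ (g.mono (min_le_right _ _))⟩⟩

theorem AllG.mono {P Q : ℕ → (ℂ × (F.I → ℂ) → F.Ξ σ) → ℝ → ℝ → ℝ → Prop} (h : F.AllG σ P)
    (i : ∀ N ξ ρ r X1 θ, F.Gf N ξ ρ r X1 θ → P N ξ r X1 θ → Q N ξ r X1 θ) : F.AllG σ Q :=
  let ⟨ρ, h0, h⟩ := h
  ⟨ρ, h0, fun N ξ r X1 θ g => i N ξ ρ r X1 θ g (h N ξ r X1 θ g)⟩


variable {N : ℕ} {ξ : ℂ × (F.I → ℂ) → F.Ξ σ} {ρ r X1 θ : ℝ}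


theorem Gf.real_mem (g : F.Gf N ξ ρ r X1 θ) {X : ℝ} (hX : X1 < X) {w : F.I → ℂ}
    (hw : w ∈ DomA r (KK N - 1 / 4) X) : ((X : ℂ), w) ∈ Om r (KK N - 1 / 4) X1 θ :=
  Gl.real_mem (by linarith [g.X1_ge]) g.θ_pos hX hw




end Fa


end Crest.Agent.N250.R0

end
end

-- ▼ part N250/S9/St
section

/-!
Row 250 (helper94): the identification of the ends in the setting `R0.St`.
-/

set_option autoImplicit false
open Set Complex Metric Filter Topology

noncomputable section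

namespace Crest.Agent.N250.R0.St

open B1

variable {S : Mv}





/-- the identification holds in the setting `T` -/
def Id (T : St S) (j : Fin T.p) : Prop := Ce.Idt T.ℓ T.R T.k.K1 T.k.ε T.U (T.b0 j) (S9.jS T.e j)


variable {T : St S} {j : Fin T.p}

theorem Good.id (h : T.Good) (j : Fin T.p) : T.Id j := fun t ht => by
  obtain ⟨δ, hδ, h5⟩ := h.idn j t ht
  obtain ⟨X0, h5⟩ := eventually_atTop.1 h5
  exact ⟨δ, X0, hδ, h5⟩




end Crest.Agent.N250.R0.St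

end
end

-- ▼ part N250/R0/LActB
section

/-!
# Row 250 (helper37): the limit of the action of the glued family
-/

set_option autoImplicit false
open MeasureTheory Set Filter Topology Metric
open Crest.GeometryTopology.MCF

noncomputable section

namespace Crest.Agent.N250.R0

open WS Wr B1 Gc
open Crest.Agent.N250.B2 (aa ofR)
open Crest.Agent.N250.Gi (KK)

variable {S : Mv}

namespace A13

theorem ok_real {v : ℝ} (hv : 0 < v) (p q : ℝ) : Act.Ok v p q := by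
  refine ⟨Complex.ofReal_ne_zero.2 hv.ne', ?_⟩
  have e : Act.Qf v p q = ((2 * v + p ^ 2 + q ^ 2 / (2 * v) : ℝ) : ℂ) := by
    rw [Act.Qf]; push_cast; rfl
  rw [e]
  exact Complex.ofReal_mem_slitPlane.2 (by positivity)

theorem cA_eq (T : St S) {X s : ℝ} (hX : T.R + 2 ≤ X) :
    T.cA s = (st (T.R + 1 / 10) (T.R + 1 / 3) (xr T.R X s) : ℝ) := by
  rcases le_total s (1 / 2) with h | h
  · rw [xr_strip _ _ h]; rfl
  · have h1 := (strictMono_xr hX).monotone h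
    rw [xr_strip _ _ le_rfl] at h1
    rw [St.cA, st_one (by linarith) (by linarith), st_one (by linarith) (by linarith)]

variable {T : St S} {F : Fa T} {σ : Scale T.G} {N : ℕ} {ξ : ℂ × (F.I → ℂ) → F.Ξ σ} {ρ r X1 θ : ℝ}
  (h : F.Gf N ξ ρ r X1 θ)
include h

theorem ev0 : ∀ᶠ X : ℝ in atTop, X1 < X ∧ (0 : F.I → ℂ) ∈ DomA r (KK N - 1 / 4) X := by
  filter_upwards [eventually_gt_atTop X1, eventually_gt_atTop 0,
    (tendsto_pow_atTop (α := ℝ) two_ne_zero).eventually_gt_atTop (2 * (KK N - 1 / 4))]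
    with X h1 h2 h3
  refine ⟨h1, fun i => by simpa using h.r_pos, fun j => ?_⟩
  have : 2 * (KK N - 1 / 4) / X ^ 2 < 1 := (div_lt_one (by positivity)).2 h3
  have e : ‖(0 : ℂ) * (X : ℂ) ^ 2 / 2 - 1 / 8‖ = 1 / 8 := by simp
  change ‖(0 : ℂ) * (X : ℂ) ^ 2 / 2 - 1 / 8‖ + _ < _
  linarith

theorem ev_small {t : ℝ} (ht : 0 < t) :
    ∀ᶠ X : ℝ in atTop, ‖ξ (X, 0)‖ < t ∧ ‖F.dat (ξ (X, 0))‖ < t := by
  obtain ⟨δ, h0, hδ⟩ := h.base t ht
  filter_upwards [ev0 h, eventually_gt_atTop δ⁻¹] with X h1 h2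
  exact hδ X h2 h1.1 0 h1.2 (by rw [show Gl.yy (0 : F.I → ℂ) = 0 from rfl, norm_zero]; exact h0)

theorem lim0 : Tendsto (fun X : ℝ => ξ (X, 0)) atTop (𝓝 0) :=
  Metric.tendsto_nhds.2 fun t ht => (ev_small h ht).mono fun X hX => by
    rw [dist_zero_right]; exact hX.1

theorem AE_lim (hG : T.Good) (j : Fin T.p) :
    Tendsto (fun X : ℝ => T.AE (F.zE N X (aa (0 : F.I → ℂ)) (ξ (X, 0)) j)) atTop
      (𝓝 (Av.actI T.R (fun x => (st (T.R + 1 / 10) (T.R + 1 / 3) x : ℝ)) (S9.jS T.e j))) := by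
  obtain ⟨_, _, _, f⟩ := hG.fm
  have hd : ∀ᶠ X : ℝ in atTop, F.zE N X (aa (0 : F.I → ℂ)) (ξ (X, 0)) j ∈ T.Dm :=
    (ev0 h).mono fun X hX => (h.sv _ (h.real_mem hX.1 hX.2)).dom j
  refine Av.actC_lim (X := fun X : ℝ => X) (a := fun _ => 0) (K := T.k.K1) (g := 13 / 8)
    (g' := 7 / 4) (J := fun X : ℝ => T.U (F.zE N X (aa (0 : F.I → ℂ)) (ξ (X, 0)) j))
    (χ := fun _ => T.cA) tendsto_id (hd.mono fun X hX => ?_)
    (Complex.continuous_ofReal.comp (contDiff_st _ _).continuous) (fun x => ?_)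
    ((eventually_ge_atTop (T.R + 2)).mono fun X hX s _ => cA_eq T hX) (fun L t ht => ?_)
    fun q hq => ?_
  · have s := CjE.sl hX
    exact Av.Mem.of f.sz.ex f.sz.hR f.sz.hK s.1 s.2.jet f.sz.he s.3
  · rw [Function.comp_apply, Complex.norm_real, Real.norm_of_nonneg (st_nonneg _ _ _)]
    exact st_le_one _ _ _
  · obtain ⟨ϑ, rb, X2, h0, -, h1, hc⟩ := Cf.close f (hG.id j) ht
    filter_upwards [hd, ev0 h, ev_small h h1, eventually_ge_atTop X2, eventually_ge_atTop 2,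
      (tendsto_id.const_mul_atTop h0).eventually_ge_atTop L,
      (tendsto_pow_atTop (α := ℝ) two_ne_zero).eventually_ge_atTop (4 * KK N)]
      with X e1 e2 e3 e4 e5 e6 e7 s φ i hs
    refine hc X 0 (Gi.hN N X 0) (T.b0 j + F.dat (ξ (X, 0)) j) e4 e1
      (Xi.EC.hN_le (h.en j).big.N0 (Gi.adm_mono (by linarith) (e2.2.2 j)) e5 e7) ?_ s φ i
      (hs.trans e6)
    rw [add_sub_cancel_left]
    exact (norm_le_pi_norm _ j).trans e3.2.le
  · have := T.r_pos (j := j) (T.eR_lt_R.trans hq)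
    exact ok_real (v := T.e.r j q ^ 2 / 2) (by positivity) _ _

end A13

open A13 in
/-- `ActL` from the splitting of the Gaussian area of the shrinker -/
theorem actL_of (spl : ∀ (S : Mv) (T : St S), T.Good → ((4 * Real.pi * S.Fs 0 0 1 : ℝ) : ℂ) =
    T.AC T.G.SC.x + ∑ j, Av.actI T.R (fun x => (st (T.R + 1 / 10) (T.R + 1 / 3) x : ℝ))
      (S9.jS T.e j)) : ActL := fun S T hG F =>
  ((act13 hG F).and (sg_jets F)).mono fun σ ⟨h, ⟨J⟩⟩ _ => h.mono fun N ξ ρ r X1 θ g p =>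
    ⟨p.1, p.2.1, p.2.2, by
      rw [spl S T hG, ← Y_zero F (σ := σ)]
      exact ((holAC F J).self_of_nhds.continuousAt.tendsto.comp (lim0 g)).add
        (tendsto_finsetSum _ fun j _ => AE_lim g hG j)⟩

end Crest.Agent.N250.R0

end
end

-- ▼ part N250/Av/Sp2

/-!
# Row 250 (helper33): the Gaussian area of the shrinker is the sum of the core and the end actions
-/

set_option autoImplicit false
open MeasureTheory Set Filter Topology
open scoped ContDiff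
open Crest.GeometryTopology.MCF

noncomputable section

namespace Crest.Agent.N250.Av2

open Wr Po R0

variable {S : Mv}

/-- the weight -/
def gw (x : E) : ℝ := Real.exp (-‖x‖ ^ 2 / 4)

theorem intg_gw (P : Prm S) : Integrable gw (S.mu 0) := by
  rw [← P.shr.reg.imm_integrable 0]
  refine (P.geo.intg_exp (δ := 1 / 4) (by norm_num)).congr (.of_forall fun p => ?_)
  have e : P.geo.S.x2.1 p = ‖(p : E)‖ ^ 2 := mv_x2 P.shr.reg p
  simp only [gw, e]
  congr 1; ring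

theorem intg_cut (P : Prm S) {c : E → ℝ} (hc : Continuous c) (h0 : ∀ x, 0 ≤ c x) (h1 : ∀ x, c x ≤ 1) :
    Integrable (fun x => c x * gw x) (S.mu 0) :=
  (intg_gw P).bdd_mul hc.aestronglyMeasurable
    (.of_forall fun x => by rw [Real.norm_of_nonneg (h0 x)]; exact h1 x)

theorem pol (hS : S.Reg) (e : Ends S) (j : Fin e.p) {q : ℝ × ℝ} (hq : e.R < q.1) :
    Pol S 0 (e.Q j) (e.r j) (S9.vS e j) q := by
  have o : {q : ℝ × ℝ | e.R < q.1} ∈ 𝓝 q := (isOpen_lt continuous_const continuous_fst).mem_nhds hq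
  exact ⟨hS, ((e.sm j).contDiffAt o).of_le (WithTop.coe_le_coe.2 (le_top (a := (2 : ℕ∞)))),
    Ec.r_pos e j hq, .of_forall fun _ => rfl, mem_of_superset o fun y hy => Ec.pX_mem e j hy⟩

/-- the part of the Gaussian area on the end `j` -/
theorem int_end (P : Prm S) (j : Fin P.e.p) {R a b : ℝ} (hR : P.e.R < R) (ha : R ≤ a) (hab : a < b) :
    ((∫ x, chi P.e j a b x * gw x ∂S.mu 0 : ℝ) : ℂ) =
      Av.actI R (fun x => ((st a b x : ℝ) : ℂ)) (S9.jS P.e j) := by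
  have hp : ∀ q ∈ strip (Ioi R), Pol S 0 (P.e.Q j) (P.e.r j) (S9.vS P.e j) q :=
    fun q hq => pol P.shr.reg P.e j (hR.trans hq.1)
  have hm := meas_pol measurableSet_Ioi hp
  have hi := intg_cut P (contDiff_chi (e := P.e) j a b).continuous (chi_nonneg j a b) (chi_le_one j a b)
  set F : ℝ × ℝ → ℝ := fun q => st a b q.1 *
    Fm.Ac.lagR q.1 (S9.vS P.e j q) (d1 (S9.vS P.e j) q) (d2 (S9.vS P.e j) q) with hF
  have e1 : ∀ q ∈ strip (Ioi R), √(Qv (S9.vS P.e j) q) • (chi P.e j a b (pX (P.e.Q j) (P.e.r j) q) *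
      gw (pX (P.e.Q j) (P.e.r j) q)) = F q := fun q hq => by
    have h1 : P.e.R < q.1 := hR.trans hq.1
    rw [← Ec.psi_val h1, Ec.chi_psi h1, Ec.psi_val h1, gw, norm_pX_sq, smul_eq_mul, hF]
    simp only [Fm.Ac.lagR, Qv]
    rw [show -(q.1 ^ 2 + P.e.r j q ^ 2) / 4 = -q.1 ^ 2 / 4 - S9.vS P.e j q / 2 by
      rw [S9.vS]; ring]
    ring
  have hs : MeasurableSet (strip (Ioi R)) := measurableSet_Ioi.prod measurableSet_Ioc
  have e2 : ∫ x, chi P.e j a b x * gw x ∂S.mu 0 = ∫ q in strip (Ioi R), F q := by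
    rw [← setIntegral_congr_fun hs e1,
      ← int_pol measurableSet_Ioi hp (fun x => chi P.e j a b x * gw x), ← integral_indicator hm,
      ← P.shr.reg.imm_integral 0, ← P.shr.reg.imm_integral 0]
    refine integral_congr_ae (.of_forall fun p => ?_)
    by_cases h : chi P.e j a b p = 0
    · simp only [indicator, h, zero_mul, ite_self]
    · obtain ⟨q, h1, h2, h3⟩ := Ec.exists_psi P.shr.st (hR.le.trans ha) p
        (tube_of_chi P.shr.st (hR.trans_le ha) hab (p := (p, 0)) p.2 h)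
      have h4 : (p : E) ∈ pX (P.e.Q j) (P.e.r j) '' strip (Ioi R) := by
        refine ⟨q, ⟨ha.trans_lt h1, h2⟩, ?_⟩
        rw [← Ec.psi_val ((hR.trans_le ha).trans h1), h3]
      exact (indicator_of_mem h4 fun x => chi P.e j a b x * gw x).symm
  have i2 : IntegrableOn F (strip (Ioi R)) :=
    ((intg_pol measurableSet_Ioi hp _).1 hi.integrableOn).congr_fun e1 hs
  have hv : Ra.Per (S9.vS P.e j) := fun s θ => by simp only [S9.vS, P.e.per j s θ]
  rw [e2, strip, Measure.volume_eq_prod, setIntegral_prod _ i2, Av.actI, ← integral_complex_ofReal]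
  refine setIntegral_congr_fun measurableSet_Ioi fun x hx => ?_
  have hP : Function.Periodic (fun θ => F (x, θ)) (2 * Real.pi) := fun θ => by
    simp only [hF, hv x θ, show d1 (S9.vS P.e j) (x, θ + 2 * Real.pi) = _ from hv.dd (1, 0) x θ,
      show d2 (S9.vS P.e j) (x, θ + 2 * Real.pi) = _ from hv.dd (0, 1) x θ]
    rfl
  have e3 := hP.intervalIntegral_add_eq (-Real.pi) 0
  rw [zero_add, show -Real.pi + 2 * Real.pi = Real.pi by ring,
    intervalIntegral.integral_of_le (by linarith [Real.pi_pos])] at e3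
  rw [e3, ← intervalIntegral.integral_ofReal]
  refine intervalIntegral.integral_congr fun θ _ => ?_
  have h0 : 0 < S9.vS P.e j (x, θ) := by
    have := Ec.r_pos P.e j (q := (x, θ)) (hR.trans hx)
    rw [S9.vS]; positivity
  simp only [hF]
  rw [Complex.ofReal_mul, ← Fm.Ac.Lag_real _ _ _ h0]
  rfl

/-- **splitting of the Gaussian area** -/
theorem spl (T : St S) : ((4 * Real.pi * S.Fs 0 0 1 : ℝ) : ℂ) = T.AC T.G.SC.x +
    ∑ j, Av.actI T.R (fun x => ((st (T.R + 1 / 10) (T.R + 1 / 3) x : ℝ) : ℂ)) (S9.jS T.e j) := by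
  have hR : T.e.R < T.R := by linarith [T.hR]
  have hab : T.R + 1 / 10 < T.R + 1 / 3 := by linarith
  have i1 := intg_cut T.P (contDiff_zeta (e := T.e) (T.R + 1 / 10) (T.R + 1 / 3)).continuous
    (zeta_nonneg _ _) (zeta_le_one _ _)
  have i2 := fun j => intg_cut T.P (contDiff_chi (e := T.e) j (T.R + 1 / 10) (T.R + 1 / 3)).continuous
    (chi_nonneg j _ _) (chi_le_one j _ _)
  have e1 : T.AC T.G.SC.x =
      (∫ x, zeta T.e (T.R + 1 / 10) (T.R + 1 / 3) x * gw x ∂S.mu 0 : ℝ) := by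
    rw [Av.AC_x, ← T.P.shr.reg.imm_integral 0]; rfl
  rw [e1, ← Finset.sum_congr rfl fun j _ => int_end T.P j hR (by linarith) hab, ← Complex.ofReal_sum,
    ← Complex.ofReal_add, ← integral_finsetSum _ fun j _ => i2 j,
    ← integral_add i1 (integrable_finsetSum _ fun j _ => i2 j), Mv.Fs, ← integral_const_mul,
    ← T.P.shr.reg.imm_integral 0, ← T.P.shr.reg.imm_integral 0]
  refine congrArg _ (integral_congr_ae (.of_forall fun p => ?_))
  have h := zeta_add_sum T.P.shr.st (by linarith : T.e.R < T.R + 1 / 10) hab (p := ((p : E), 0)) p.2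
  have := Real.pi_pos
  simp only [← Finset.sum_mul, ← add_mul]
  rw [show zeta T.e (T.R + 1 / 10) (T.R + 1 / 3) p + ∑ j, chi T.e j (T.R + 1 / 10) (T.R + 1 / 3) p = 1
    from h, one_mul, gau, gw, sub_zero, mul_one, mul_one]
  field_simp

end Crest.Agent.N250.Av2

end
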